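import Vale.Agent.P251.X.Small
import Vale.Agent.P251.X.VLax
import Vale.Agent.P251.X.GrLem
import Vale.Agent.P251.Z.KRing

/-!
# N251: a ring spectrum with homotopy `𝔽_p[v, v⁻¹]` has a minimal Bousfield class

If `K ⊗ X ≠ 0` and `X ⊗ W = 0` then `K ⊗ W = 0`. The proof uses the Künneth theorem for the theory
`W ↦ π_{2*}(K ⊗ W) / (v - 1)`.
-/

open CategoryTheory MonoidalCategory Limits Pretriangulated MonObj
open scoped TensorProduct

set_option linter.unusedSectionVars false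

universe v u

noncomputable section

namespace Vale.Agent.N251

open Vale.Agent.P251 Vale.Agent.P251.T Vale.Agent.P251.M Vale.Agent.P251.M.EvenSpheres
  Vale.Agent.P251.S Vale.Agent.P251.X

theorem eq_zero_of_tmul {k A B : Type*} [Field k] [AddCommGroup A] [Module k A] [AddCommGroup B]
    [Module k B] {a : A} {b : B} (h : a ⊗ₜ[k] b = 0) (ha : a ≠ 0) : b = 0 := by
  obtain ⟨φ, hφ⟩ : ∃ φ : Module.Dual k A, φ a ≠ 0 := by
    by_contra h1
    exact ha ((Module.forall_dual_apply_eq_zero_iff k a).1 fun φ => by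
      by_contra h2
      exact h1 ⟨φ, h2⟩)
  have h2 := congrArg (fun t => TensorProduct.lid k B (TensorProduct.map φ LinearMap.id t)) h
  simp only [TensorProduct.map_tmul, TensorProduct.lid_tmul, LinearMap.id_apply, map_zero] at h2
  exact (smul_eq_zero.1 h2).resolve_left hφ

variable {T : Type u} [Category.{v} T] [Preadditive T] [HasZeroObject T]
    [HasShift T ℤ] [∀ n : ℤ, (shiftFunctor T n).Additive] [Pretriangulated T] [IsTriangulated T]
    [MonoidalCategory T] [SymmetricCategory T] [TensorTriangulated T] [MonoidalClosed T]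
    [HasCoproducts.{0} T] [HasProducts.{0} T] [StableCat T]
  {K : T} [MonObj K] [IsCommMonObj K] {p N : ℕ} [Fact p.Prime]
  {a : (stdEven T).S N ⟶ K} {w : (stdEven T).S (-N) ⟶ K}

/-- the point `v ↦ 1`; its kernel is generated by `v - 1` -/
theorem exists_pt (L : Z.IsLaurent (stdEven T) p N a w) (hN : N ≠ 0) :
    ∃ c : Pt (stdEven T) K p N, c.v = a ∧
      ∀ x, c.χ x = 0 → ∃ y, x = (HRing.of (stdEven T) K N a - 1) * y := by
  let _ := L.algebra
  have := L.isLocalization hN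
  have hu : IsUnit ((Polynomial.evalRingHom (1 : ZMod p)) Polynomial.X) := by simp
  let χ : HRing (stdEven T) K →+* ZMod p := IsLocalization.Away.lift Polynomial.X hu
  have hχ : ∀ f, χ (algebraMap (Polynomial (ZMod p)) _ f) = f.eval 1 := fun f =>
    IsLocalization.Away.lift_eq Polynomial.X hu f
  have hv : χ (HRing.of (stdEven T) K N a) = 1 := by
    rw [← L.algebraMap_X, hχ, Polynomial.eval_X]
  have h0 : ∀ j, HRing.of (stdEven T) K j (0 : (stdEven T).S j ⟶ K) = 0 := fun j =>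
    map_zero (DirectSum.of ((stdEven T).Gr K) j)
  refine ⟨⟨χ, fun j hj f => by rw [L.sparse j hj f, h0, map_zero], a, hv⟩, rfl, ?_⟩
  intro x hx
  have hx' : χ x = 0 := hx
  obtain ⟨k, f, hf⟩ := L.surj x
  have h1 : f.eval 1 = 0 := by rw [← hχ, ← hf, map_mul, hx', zero_mul]
  obtain ⟨g, hg⟩ := Polynomial.dvd_iff_isRoot.2 h1
  obtain ⟨e, he⟩ := (L.isUnit.pow k).exists_right_inv
  refine ⟨algebraMap (Polynomial (ZMod p)) _ g * e, ?_⟩
  rw [hg, map_mul, map_sub, L.algebraMap_X, Polynomial.C_1, map_one] at hf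
  rw [← _root_.mul_assoc, ← hf, _root_.mul_assoc, he, _root_.mul_one]

section pt

variable {c : Pt (stdEven T) K p N} (hc : c.v = a)
  (hk : ∀ x, c.χ x = 0 → ∃ y, x = (HRing.of (stdEven T) K N a - 1) * y)

include hk in
theorem exists_of_mem {W : T} {z : MP (stdEven T) K W}
    (hz : z ∈ c.I • (⊤ : Submodule (HRing (stdEven T) K) (MP (stdEven T) K W))) :
    ∃ y, z = HRing.of (stdEven T) K N a • y - y := by
  induction hz using Submodule.smul_induction_on' with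
  | smul r hr y _ =>
    obtain ⟨s, rfl⟩ := hk r (c.mem_I.1 hr)
    exact ⟨s • y, by rw [mul_smul, sub_smul, one_smul]⟩
  | add x _ y _ hx hy =>
    obtain ⟨x', rfl⟩ := hx
    obtain ⟨y', rfl⟩ := hy
    exact ⟨x' + y', by rw [smul_add]; abel⟩

include hc hk in
theorem pt_exact (hN : N ≠ 0) : c.Exact := by
  intro X Y Z f g h hT y hy
  obtain ⟨z, hz⟩ := exists_of_mem hk hy
  obtain ⟨x, y', hxy⟩ := exists_of_sub hN a f g (fun m y hy => by
    obtain ⟨b, hb⟩ := ex₂ (tens_dist K hT) y hy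
    exact ⟨b, hb.symm⟩) y z hz
  refine ⟨x, ?_⟩
  have h1 : y - MP.map (stdEven T) K f x = (HRing.of (stdEven T) K N a - 1) • y' := by
    rw [sub_smul, one_smul, sub_eq_iff_eq_add']
    exact hxy
  rw [h1]
  refine Vtot.smul_mem ?_ y'
  rw [map_sub, ← hc, c.χ_v, map_one, sub_self]

include hk in
theorem hom_eq_zero (hu : IsUnit (HRing.of (stdEven T) K N a)) (hN : N ≠ 0) {W : T}
    (h : ∀ x : Vtot c W, x = 0) (j : ℤ) (x : (stdEven T).S j ⟶ K ⊗ W) : x = 0 := by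
  obtain ⟨z, hz⟩ := exists_of_mem hk (Vtot.mk_eq_zero.1 (h (Vtot.mk c W (MP.of _ K W j x))))
  obtain ⟨m₀, hm⟩ := Gr.exists_S_sub a hN z
  have hN' : (1 : ℤ) ≤ N := by exact_mod_cast Nat.pos_of_ne_zero hN
  have h1 : (0 : ℤ) ≤ ((m₀ - j).natAbs : ℤ) := Int.natCast_nonneg _
  have h2 : m₀ - j ≤ ((m₀ - j).natAbs : ℤ) := Int.le_natAbs
  have h3 := hm (j + N * ((m₀ - j).natAbs : ℤ)) (by nlinarith)
  rw [← hz, Gr.S_of, if_pos ⟨by nlinarith, ⟨_, add_sub_cancel_left _ _⟩⟩] at h3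
  obtain ⟨e, he⟩ := (hu.pow ((j + N * ((m₀ - j).natAbs : ℤ) - j) / N).toNat).exists_left_inv
  have h4 : MP.of (stdEven T) K W j x = 0 := by
    rw [← one_smul (HRing (stdEven T) K) (MP.of (stdEven T) K W j x), ← he, mul_smul, h3,
      smul_zero]
  exact MP.of_injective j (h4.trans (map_zero _).symm)

end pt

omit [MonObj K] [IsCommMonObj K] in
theorem isZero_of_even {W : T} (h0 : ∀ (j : ℤ) (x : (stdEven T).S j ⟶ K ⊗ W), x = 0)
    (h1 : ∀ (j : ℤ) (x : (stdEven T).S j ⟶ K ⊗ (W ⊗ (𝟙_ T)⟦(-1 : ℤ)⟧)), x = 0) :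
    IsZero (K ⊗ W) := by
  refine StableCat.generator _ fun n f => ?_
  obtain ⟨j, rfl | rfl⟩ := Int.even_or_odd' n
  · rw [← cancel_epi (LaxTh.sph j).hom, comp_zero]
    exact h0 j _
  · let e₁ : (stdEven T).S j ≅ ((𝟙_ T)⟦2 * j + 1⟧)⟦(-1 : ℤ)⟧ :=
      LaxTh.sph j ≪≫ (shiftFunctorAdd' T (2 * j + 1) (-1) (2 * j) (by ring)).app (𝟙_ T)
    let e₂ : (K ⊗ W)⟦(-1 : ℤ)⟧ ≅ K ⊗ (W ⊗ (𝟙_ T)⟦(-1 : ℤ)⟧) :=
      (tensorSph (-1) (K ⊗ W)).symm ≪≫ α_ _ _ _
    have h2 := h1 j (e₁.hom ≫ f⟦(-1 : ℤ)⟧' ≫ e₂.hom)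
    apply (shiftFunctor T (-1 : ℤ)).map_injective
    rw [Functor.map_zero, ← cancel_epi e₁.hom, ← cancel_mono e₂.hom, Category.assoc, h2,
      comp_zero, zero_comp]

theorem isZero_tensor_right {X Y : T} (h : IsZero (X ⊗ Y)) (A : T) : IsZero (X ⊗ (Y ⊗ A)) :=
  (Functor.map_isZero (tensorRight A) h).of_iso (α_ X Y A).symm

theorem isZero_tensor_left {X Y : T} (h : IsZero (X ⊗ Y)) (A : T) : IsZero ((X ⊗ A) ⊗ Y) :=
  (isZero_tensor_right h A).of_iso (α_ X A Y ≪≫ whiskerLeftIso X (β_ A Y))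

/-- **Minimality of the Bousfield class of a graded field.** -/
theorem isZero_of_field [LocallySmall.{0} T] (L : Z.IsLaurent (stdEven T) p N a w) (hN : N ≠ 0)
    (hodd : Odd0 K) {X W : T} (hX : ¬ IsZero (K ⊗ X)) (hW : IsZero (X ⊗ W)) :
    IsZero (K ⊗ W) := by
  obtain ⟨c, hc, hk⟩ := exists_pt L hN
  have hex := pt_exact hc hk hN
  have key : ∀ {X Y : T}, IsZero (X ⊗ Y) → ∀ x : Vtot c X, x ≠ 0 → ∀ y : Vtot c Y, y = 0 := by
    intro X Y h x hx y
    have h1 := (LaxTh.kun (VtotSph c hex hodd) Y X).1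
    have h2 : ∀ t : Vtot c (X ⊗ Y), t = 0 := Vtot.eq_zero_of_hom c fun j f =>
      (Functor.map_isZero (tensorLeft K) h).eq_of_tgt f 0
    have h3 := @h1 (x ⊗ₜ y, 0) 0 ((h2 _).trans (h2 _).symm)
    exact eq_zero_of_tmul (congrArg Prod.fst h3) hx
  have fin : ∀ {Y : T}, (∀ y : Vtot c Y, y = 0) → (∀ y : Vtot c (Y ⊗ (𝟙_ T)⟦(-1 : ℤ)⟧), y = 0) →
      IsZero (K ⊗ Y) := fun h0 h1 =>
    isZero_of_even (hom_eq_zero hk L.isUnit hN h0) (hom_eq_zero hk L.isUnit hN h1)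
  by_cases h0 : ∀ x : Vtot c X, x = 0
  · by_cases h1 : ∀ x : Vtot c (X ⊗ (𝟙_ T)⟦(-1 : ℤ)⟧), x = 0
    · exact absurd (fin h0 h1) hX
    · obtain ⟨x, hx⟩ := not_forall.1 h1
      have h2 := isZero_tensor_left hW ((𝟙_ T)⟦(-1 : ℤ)⟧)
      exact fin (key h2 x hx) (key (isZero_tensor_right h2 _) x hx)
  · obtain ⟨x, hx⟩ := not_forall.1 h0
    exact fin (key hW x hx) (key (isZero_tensor_right hW _) x hx)

end Vale.Agent.N251
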