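import Vale.Agent.P251.S.Conv10
import Vale.Agent.P251.S.ModP
import Vale.Agent.P251.S.Local

/-!
# N251: from coefficients in the Moore spectrum to integral coefficients

`C` is the cofibre of `p` on the unit and `K` is an object such that `C`-acyclic objects are
`K`-acyclic, so that `K`-local objects are `p`-complete.  Evenness and exactness of the homotopy of
`L_K (Y ⊗ C)` imply evenness and exactness of the homotopy of `L_K Y`, by successive approximation.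
-/

open CategoryTheory MonoidalCategory Limits Pretriangulated

open scoped ZeroObject

set_option linter.unusedSectionVars false

universe v u

namespace Vale.Agent.N251

open Vale.Agent.P251.T Vale.Agent.P251.S

variable {T : Type u} [Category.{v} T] [Preadditive T] [HasZeroObject T]
    [HasShift T ℤ] [∀ n : ℤ, (shiftFunctor T n).Additive] [Pretriangulated T] [IsTriangulated T]
    [MonoidalCategory T] [SymmetricCategory T] [TensorTriangulated T] [MonoidalClosed T]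
    [HasCoproducts.{0} T] [HasProducts.{0} T] [StableCat T]
    {C : T} {p : ℤ} {i : 𝟙_ T ⟶ C} {δ : C ⟶ (𝟙_ T)⟦(1 : ℤ)⟧}
    (hC : Triangle.mk (p • 𝟙 (𝟙_ T)) i δ ∈ distTriang T) {K : T} (F : LocFunctor K)

include hC

/-- `p² = 0` on `Y ⊗ C`. -/
lemma sq_zsmul (Y : T) : p • (p • 𝟙 (Y ⊗ C)) = 0 := by
  obtain ⟨g, hg⟩ : ∃ g : Y ⊗ C ⟶ Y, p • 𝟙 (Y ⊗ C) = g ≫ (redC i).app Y :=
    Triangle.coyoneda_exact₃ _ (redTri_distinguished hC Y) (p • 𝟙 (Y ⊗ C)) (by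
      change (p • 𝟙 (Y ⊗ C)) ≫ bdC δ Y = 0
      rw [Preadditive.zsmul_comp, Category.id_comp, bdC_zsmul hC])
  rw [hg, ← Preadditive.comp_zsmul, zsmul_red hC]
  exact comp_zero

/-- The telescope of `p` is `C`-acyclic. -/
lemma acyclic_tel (A : T) (U : Tel (X := fun _ => A) (fun _ => p • 𝟙 A)) : Acyclic C U.obj := by
  have h1 : IsZero (U.obj ⊗ C) := by
    refine Tel.isZero_const (w := endR A C (p • 𝟙 A : A ⟶ A)) (U.tensR C) ⟨2, ?_⟩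
    have h : (p • 𝟙 A : A ⟶ A) ▷ C = p • 𝟙 (A ⊗ C) :=
      ((tensorRight C).map_zsmul).trans (congrArg _ (MonoidalCategory.id_whiskerRight _ _))
    rw [pow_two]
    change ((p • 𝟙 A : A ⟶ A) ▷ C) ≫ ((p • 𝟙 A : A ⟶ A) ▷ C) = 0
    rw [h, Preadditive.zsmul_comp, Category.id_comp, sq_zsmul hC]
  exact h1.of_iso (β_ _ _)

lemma loc_tri (Y : T) : Triangle.mk (p • 𝟙 (F.L.obj Y)) (F.L.map ((redC i).app Y))
    (F.L.map (bdC δ Y) ≫ (F.L.commShiftIso (1 : ℤ)).hom.app Y) ∈ distTriang T := by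
  have h := F.L.map_distinguished _ (redTri_distinguished hC Y)
  have e : F.L.map (p • 𝟙 Y) = p • 𝟙 (F.L.obj Y) :=
    (F.L.map_zsmul).trans (congrArg _ (F.L.map_id _))
  rw [← e]
  exact h

lemma loc_ker {A Y : T} (f : A ⟶ F.L.obj Y) (h : f ≫ F.L.map ((redC i).app Y) = 0) :
    ∃ g : A ⟶ F.L.obj Y, p • g = f := by
  obtain ⟨g, hg⟩ : ∃ g : A ⟶ F.L.obj Y, f = g ≫ (p • 𝟙 _) :=
    Triangle.coyoneda_exact₂ _ (loc_tri hC F Y) f h
  exact ⟨g, by rw [hg, Preadditive.comp_zsmul, Category.comp_id]⟩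

lemma loc_lift {A Y : T} (h : ∀ g : A ⟶ (F.L.obj Y)⟦(1 : ℤ)⟧, g = 0) (f : A ⟶ F.L.obj (Y ⊗ C)) :
    ∃ g : A ⟶ F.L.obj Y, g ≫ F.L.map ((redC i).app Y) = f := by
  obtain ⟨g, hg⟩ : ∃ g : A ⟶ F.L.obj Y, f = g ≫ F.L.map ((redC i).app Y) :=
    Triangle.coyoneda_exact₃ _ (loc_tri hC F Y) f (h _)
  exact ⟨g, hg.symm⟩

lemma loc_tf {A Y : T} (h0 : ∀ g : A⟦(1 : ℤ)⟧ ⟶ F.L.obj (Y ⊗ C), g = 0) (f : A ⟶ F.L.obj Y)
    (hf : p • f = 0) : f = 0 := by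
  have h : f⟦(1 : ℤ)⟧' ≫ (p • 𝟙 (F.L.obj Y))⟦(1 : ℤ)⟧' = 0 := by
    rw [← Functor.map_comp, Preadditive.comp_zsmul, Category.comp_id, hf, Functor.map_zero]
  obtain ⟨g, hg⟩ : ∃ g : A⟦(1 : ℤ)⟧ ⟶ F.L.obj (Y ⊗ C), f⟦(1 : ℤ)⟧' = g ≫
      (F.L.map (bdC δ Y) ≫ (F.L.commShiftIso (1 : ℤ)).hom.app Y) :=
    Triangle.coyoneda_exact₁ _ (loc_tri hC F Y) (f⟦(1 : ℤ)⟧') h
  apply (shiftFunctor T (1 : ℤ)).map_injective
  rw [hg, h0 g, zero_comp, Functor.map_zero]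

variable (hK : ∀ W, Acyclic C W → Acyclic K W)

include hK

lemma loc_zero {A Y : T} (h0 : ∀ g : A ⟶ F.L.obj (Y ⊗ C), g = 0) (f : A ⟶ F.L.obj Y) :
    f = 0 := by
  choose φ hφ using fun g : A ⟶ F.L.obj Y => loc_ker hC F g (h0 _)
  obtain ⟨U⟩ := exists_tel (X := fun _ => A) (fun _ => p • 𝟙 A)
  refine (F.isLocal Y).eq_zero_of_compat U (hK _ (acyclic_tel hC A U)) (fun k => φ^[k] f)
    (fun k => ?_) 0
  rw [Function.iterate_succ_apply', Preadditive.zsmul_comp, Category.id_comp, hφ]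

lemma loc_parZero {Y : T} (h : ParZero 0 (F.L.obj (Y ⊗ C))) : ParZero 0 (F.L.obj Y) :=
  fun A n hA hn f => loc_zero hC F hK (h A n hA hn) f

/-- Successive approximation. -/
lemma loc_exact {A Y₀ Y₁ Y₂ : T} (d₀ : Y₀ ⟶ Y₁) (d₁ : Y₁ ⟶ Y₂) (hd : d₀ ≫ d₁ = 0)
    (h0 : ∀ g : A ⟶ (F.L.obj Y₀)⟦(1 : ℤ)⟧, g = 0)
    (h2 : ∀ g : A⟦(1 : ℤ)⟧ ⟶ F.L.obj (Y₂ ⊗ C), g = 0)
    (hex : ∀ b : A ⟶ F.L.obj (Y₁ ⊗ C), b ≫ F.L.map (d₁ ▷ C) = 0 →
      ∃ a : A ⟶ F.L.obj (Y₀ ⊗ C), a ≫ F.L.map (d₀ ▷ C) = b)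
    (b : A ⟶ F.L.obj Y₁) (hb : b ≫ F.L.map d₁ = 0) :
    ∃ a : A ⟶ F.L.obj Y₀, a ≫ F.L.map d₀ = b := by
  have nat : ∀ {Y Y' : T} (d : Y ⟶ Y'), F.L.map ((redC i).app Y) ≫ F.L.map (d ▷ C) =
      F.L.map d ≫ F.L.map ((redC i).app Y') := by
    intro Y Y' d
    rw [← F.L.map_comp, ← F.L.map_comp]
    exact congrArg _ ((redC i).naturality d).symm
  have hdd : F.L.map d₀ ≫ F.L.map d₁ = 0 := by rw [← F.L.map_comp, hd, F.L.map_zero]
  have step : ∀ b : {b : A ⟶ F.L.obj Y₁ // b ≫ F.L.map d₁ = 0},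
      ∃ (a : A ⟶ F.L.obj Y₀) (b' : {b : A ⟶ F.L.obj Y₁ // b ≫ F.L.map d₁ = 0}),
        p • b'.1 = b.1 - a ≫ F.L.map d₀ := by
    rintro ⟨b, hb⟩
    obtain ⟨a', ha'⟩ := hex (b ≫ F.L.map ((redC i).app Y₁)) (by
      rw [Category.assoc, nat, ← Category.assoc, hb, zero_comp])
    obtain ⟨a, rfl⟩ := loc_lift hC F h0 a'
    obtain ⟨b', hb'⟩ := loc_ker hC F (b - a ≫ F.L.map d₀) (by
      rw [Preadditive.sub_comp, ← ha', Category.assoc, Category.assoc, nat, sub_self])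
    refine ⟨a, ⟨b', loc_tf hC F h2 _ ?_⟩, hb'⟩
    rw [← Preadditive.zsmul_comp, hb', Preadditive.sub_comp, hb, Category.assoc, hdd, comp_zero,
      sub_zero]
  choose α φ hφ using step
  obtain ⟨U⟩ := exists_tel (X := fun _ => A) (fun _ => p • 𝟙 A)
  have hU := hK _ (acyclic_tel hC A U)
  obtain ⟨x, hx⟩ := (F.isLocal Y₀).exists_solution U hU (fun k => α (φ^[k] ⟨b, hb⟩))
  have h := (F.isLocal Y₁).eq_zero_of_compat U hU
    (fun k => (φ^[k] ⟨b, hb⟩).1 - x k ≫ F.L.map d₀) (fun k => by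
      have h1 := hx k
      rw [Preadditive.zsmul_comp, Category.id_comp] at h1 ⊢
      rw [Function.iterate_succ_apply', smul_sub, hφ, ← h1, Preadditive.sub_comp,
        Preadditive.zsmul_comp]
      abel) 0
  exact ⟨x 0, (sub_eq_zero.1 h).symm⟩

omit hC hK in
lemma ex_one_iff {U V W : T} {a : U ⟶ V} {b : V ⟶ W} : Ex (𝟙_ T) a b ↔
    ∀ A : T, IsSphere A → ∀ x : A ⟶ V, x ≫ b = 0 → ∃ y : A ⟶ U, y ≫ a = x := by
  constructor
  · intro h A hA x hx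
    obtain ⟨y, hy⟩ := h A hA (x ≫ (λ_ V).inv) (by
      rw [Category.assoc, ← leftUnitor_inv_naturality, ← Category.assoc, hx, zero_comp])
    refine ⟨y ≫ (λ_ U).hom, ?_⟩
    rw [Category.assoc, ← leftUnitor_naturality, ← Category.assoc, hy, Category.assoc,
      Iso.inv_hom_id, Category.comp_id]
  · intro h A hA x hx
    obtain ⟨y, hy⟩ := h A hA (x ≫ (λ_ V).hom) (by
      rw [Category.assoc, ← leftUnitor_naturality, ← Category.assoc, hx, zero_comp])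
    refine ⟨y ≫ (λ_ U).inv, ?_⟩
    rw [Category.assoc, ← leftUnitor_inv_naturality, ← Category.assoc, hy, Category.assoc,
      Iso.hom_inv_id, Category.comp_id]

lemma loc_ex {Y₀ Y₁ Y₂ : T} (d₀ : Y₀ ⟶ Y₁) (d₁ : Y₁ ⟶ Y₂) (hd : d₀ ≫ d₁ = 0)
    (h0 : ParZero 0 (F.L.obj (Y₀ ⊗ C))) (h1 : ParZero 0 (F.L.obj (Y₁ ⊗ C)))
    (h2 : ParZero 0 (F.L.obj (Y₂ ⊗ C)))
    (hex : Ex (𝟙_ T) (F.L.map (d₀ ▷ C)) (F.L.map (d₁ ▷ C))) :
    Ex (𝟙_ T) (F.L.map d₀) (F.L.map d₁) := by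
  rw [ex_one_iff] at hex ⊢
  rintro A ⟨t, ⟨e⟩⟩ x hx
  rcases Int.emod_two_eq_zero_or_one t with ht | ht
  · refine loc_exact hC F hK d₀ d₁ hd (fun g => ?_) (fun g => ?_) (hex A ⟨t, ⟨e⟩⟩) x hx
    · exact (loc_parZero hC F hK h0).shift 1 A t ⟨e⟩ (by omega) g
    · exact h2 _ (t + 1) ⟨(shiftFunctor T (1 : ℤ)).mapIso e ≪≫
        ((shiftFunctorAdd' T t 1 (t + 1) rfl).symm.app _)⟩ (by omega) g
  · exact ⟨0, by rw [zero_comp, loc_parZero hC F hK h1 A t ⟨e⟩ (by omega) x]⟩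

/-- The convergence theorem for `L X`, from the `E_2`-term of `L (X ⊗ C)`. -/
theorem converge_int (X : Tow T) {R : T} (hR : ∀ s, R ◁ X.c s = 0) {a : ℕ}
    (hKR : Built (IsRMul R) a K) {b : ℕ} (hKF : Built FinEven b K)
    (hodd : ∀ (s : ℕ) (n : ℤ), (n + s) % 2 = 1 →
      ∀ z : ((X.map (tensorRight C ⋙ F.L)).couple (𝟙_ T)).E s n, z = 0)
    (s₁ : ℕ) (hvan : ∀ s, s₁ ≤ s → ∀ n : ℤ,
      ((X.map (tensorRight C ⋙ F.L)).couple (𝟙_ T)).Van s n)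
    (s : ℕ) (hs : s₁ + 1 ≤ s) (n : ℤ) (y : ((X.map F.L).couple (𝟙_ T)).D (s + 1) n) :
    ((X.map F.L).couple (𝟙_ T)).i s n y = 0 := by
  have hp : ∀ s, ParZero 0 (F.L.obj (X.W s ⊗ C)) := fun s =>
    (X.map (tensorRight C ⋙ F.L)).parZero_of_couple (hodd s)
  have e1 : ∀ s, (X.map F.L).d s = F.L.map (X.d s) := fun s => (F.L.map_comp _ _).symm
  have e2 : ∀ s, (X.map (tensorRight C ⋙ F.L)).d s = F.L.map (X.d s ▷ C) := fun s =>
    ((tensorRight C ⋙ F.L).map_comp _ _).symm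
  apply Tow.couple_i_eq_zero
  apply Tow.ghost_c_of_i
  refine Tow.converge (Vale.Agent.P251.B.mapUnit X F.unit) (fun s => F.isIso _)
    (fun s => F.isLocal _) hR hKR hKF (fun s => loc_parZero hC F hK (hp s)) s₁
    (fun s hs => ?_) s hs
  have h := (X.map (tensorRight C ⋙ F.L)).ex_of_van (hvan s hs)
  rw [e2, e2] at h
  rw [e1, e1]
  exact loc_ex hC F hK _ _ (X.d_d s) (hp s) (hp (s + 1)) (hp (s + 2)) h

end Vale.Agent.N251
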