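import Vale.Agent.P251Z.RevE
import Vale.Agent.P251.Z.KosMoore

/-!
# N251: from the Koszul object of height `h` to the one of height `m > h`

If `v_0, …, v_{m-1}` is a regular sequence on `π_*(K ⊗ P)` and `K ⊗ K_h = 0` for some `h < m`, then
`K ⊗ K_m = 0`.
-/

open CategoryTheory MonoidalCategory Limits Pretriangulated MonObj

set_option linter.unusedSectionVars false

universe v u

namespace Vale.Agent.N251

open Vale.Agent.P251.T Vale.Agent.P251.S Vale.Agent.P251.Z Vale.Agent.P251Z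

variable {T : Type u} [Category.{v} T] [Preadditive T] [HasZeroObject T]
    [HasShift T ℤ] [∀ n : ℤ, (shiftFunctor T n).Additive] [Pretriangulated T] [IsTriangulated T]
    [MonoidalCategory T] [SymmetricCategory T] [TensorTriangulated T] [MonoidalClosed T]
    [HasCoproducts.{0} T] [HasProducts.{0} T] [StableCat T]
  {P : T} [MonObj P] [IsCommMonObj P] {p : ℤ} {h m : ℕ} {v : ℕ → (𝟙_ T ⟶ P)}
  (D : KosData P p h v) {K : T} {J : Type} {f : J → (P ⟶ P ⊗ P)}

/-- regularity on the partial Koszul objects -/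
theorem reg_level (hv : InvData P p m v) (hf : ∀ a, Lin (f a)) (hf' : IsIso (Sigma.desc f))
    (hreg : ∀ A : T, IsSphere A → GoodReg 0 m (fun k => pc A (K ◁ vP v k))) (i : ℕ) (hi : i ≤ m) :
    ∃ (G : T) (_ : G ≅ K ⊗ D.kos i),
      ∀ A : T, IsSphere A → GoodReg i m (fun k => pc A (G ◁ vP v k)) := by
  induction i with
  | zero => exact ⟨K, (ρ_ K).symm, hreg⟩
  | succ i ih =>
    obtain ⟨G, e, L⟩ := ih (by omega)
    match i, e, L with
    | 0, e, L =>
      have hfv : ∀ (_ : Unit) (k : ℕ), (λ_ P).inv ≫ (𝟙_ T) ◁ vP v k = vP v k ≫ (λ_ P).inv :=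
        fun _ k => (leftUnitor_inv_naturality _).symm
      have H := regStep L (by omega) D.dist0 (fun _ : Unit => (λ_ P).inv) hfv (𝟙 _)
        (fun _ => 0) (by
          rw [Category.id_comp, Finset.sum_range_zero, add_zero, vP_zero hv,
            whiskerLeft_zsmul', whiskerRight_zsmul', id_whiskerRight,
            MonoidalCategory.whiskerLeft_id])
      exact ⟨G ⊗ D.Q 0, whiskerRightIso e _ ≪≫ α_ _ _ _, fun A hA =>
        (H A hA).1.quot (pc A (G ◁ (D.q0 ▷ P) ≫ (α_ G (D.Q 0) P).inv)) (H A hA).2.1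
          (fun k x => quot_comm D.q0 (vP v k) A x) (H A hA).2.2⟩
    | i + 1, e, L =>
      obtain ⟨u, c, hu, hw⟩ := InvRel.swap (hv.inv (i + 1) (by omega) (by omega))
      have H := regStep L (by omega) (D.dist i) f
        (fun a k => ((hf a).smul_comm (v k)).symm) u c hw
      exact ⟨G ⊗ D.Q (i + 1), whiskerRightIso e _ ≪≫ α_ _ _ _, fun A hA =>
        (H A hA).1.quot (pc A (G ◁ (D.q i ▷ P) ≫ (α_ G (D.Q (i + 1)) P).inv)) (H A hA).2.1
          (fun k x => quot_comm (D.q i) (vP v k) A x) (H A hA).2.2⟩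

/-- `v_h` is injective on the homotopy of `K ⊗ kos h ⊗ P`, so this object vanishes if the
telescope does. -/
theorem isZero_kos (hm : h < m) (hv : InvData P p m v) (hf : ∀ a, Lin (f a))
    (hf' : IsIso (Sigma.desc f))
    (hreg : ∀ A : T, IsSphere A → GoodReg 0 m (fun k => pc A (K ◁ vP v k)))
    (hz : IsZero (K ⊗ D.K)) : IsZero ((K ⊗ D.kos h) ⊗ P) := by
  obtain ⟨G, e, L⟩ := reg_level D hv hf hf' hreg h hm.le
  have h1 : IsZero (G ⊗ D.Tl) := hz.of_iso (whiskerRightIso e _ ≪≫ α_ _ _ _)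
  refine IsZero.of_iso (StableCat.generator (G ⊗ P) fun n x => ?_) (whiskerRightIso e.symm P)
  obtain ⟨k, hk⟩ := (D.isTel.tel.tensL G).exists_eq_zero (isCpt_sphere (isSphere_one_shift n))
    (n := 0) x (h1.eq_of_tgt _ _)
  rw [trT_const] at hk
  induction k with
  | zero => simpa using hk
  | succ k ih =>
    apply ih
    rw [itr_succ, ← Category.assoc] at hk
    exact (L _ (isSphere_one_shift n)).injective hm hk

/-- the same cofibres, with the telescope of `v m` -/
def retel (U : Tel (X := fun _ : ℕ => P) (fun _ => (ModStr.self P).smul (v m))) :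
    KosData P p m v where
  Q := D.Q
  q0 := D.q0
  δ0 := D.δ0
  dist0 := D.dist0
  q := D.q
  δ := D.δ
  dist := D.dist
  Tl := U.obj
  ι := U.ι
  isTel := U.isTel

theorem retel_kos (U : Tel (X := fun _ : ℕ => P) (fun _ => (ModStr.self P).smul (v m))) (i : ℕ) :
    (retel D U).kos i = D.kos i := by
  induction i with
  | zero => rfl
  | succ i ih =>
    rw [KosData.kos_succ, KosData.kos_succ, ih]
    rfl

/-- **From height `h` to height `m > h`.** -/
theorem exists_isZero_higher (hm : h < m) (hv : InvData P p m v) (hf : ∀ a, Lin (f a))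
    (hf' : IsIso (Sigma.desc f))
    (hreg : ∀ A : T, IsSphere A → GoodReg 0 m (fun k => pc A (K ◁ vP v k)))
    (hz : IsZero (K ⊗ D.K)) : ∃ D' : KosData P p m v, IsZero (K ⊗ D'.K) := by
  obtain ⟨U⟩ := exists_tel (X := fun _ : ℕ => P) (fun _ => (ModStr.self P).smul (v m))
  refine ⟨retel D U, ?_⟩
  have h0 := isZero_kos D hm hv hf hf' hreg hz
  have h1 : ∀ j, Acyclic (K ⊗ D.kos (h + j)) P := by
    intro j
    induction j with
    | zero => exact h0
    | succ j ih => exact acyclic_of_iso_left (α_ _ _ _) (acyclic_tensor_right (D.Q (h + j)) ih)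
  obtain ⟨j, rfl⟩ : ∃ j, m = h + j := ⟨m - h, by omega⟩
  have h2 : IsZero ((K ⊗ D.kos (h + j)) ⊗ U.obj) :=
    (U.tensL (K ⊗ D.kos (h + j))).isZero_of_proZero fun n => ⟨0, (h1 j).eq_of_src _ _⟩
  have h3 : (retel D U).K = D.kos (h + j) ⊗ U.obj := by
    rw [KosData.K, retel_kos]
    rfl
  rw [h3]
  exact h2.of_iso (α_ _ _ _).symm

end Vale.Agent.N251
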