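import Vale.Agent.N251.WitMU
import Vale.Agent.N251.Field
import Vale.Agent.N251.Level
import Vale.Agent.P251Z.JWMain
import Vale.Agent.P251.X.KExists

/-!
# N251: `⟨E(m)⟩ ≥ ⟨K(h)⟩` for `1 ≤ h ≤ m`, and the witness in a stable homotopy category

* `acyclic_of_field`: `K(h) ⊗ X ≠ 0` and `X ⊗ W = 0` imply `K(h) ⊗ W = 0`;
* `kos_of_jw_le`: `E(m)`-acyclic objects are acyclic for the Koszul object of height `h ≤ m`;
* `exists_wit`: the witness, for all `p ≤ n`, `n² < 2 (p - 1)²`.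
-/

open CategoryTheory MonoidalCategory Limits Pretriangulated MonObj

set_option linter.unusedSectionVars false

universe v u

noncomputable section

namespace Vale.Agent.N251

open Vale.Agent.P251 Vale.Agent.P251.I Vale.Agent.P251.T Vale.Agent.P251.M Vale.Agent.P251.F

section lib

variable {T : Type u} [Category.{v} T] [Preadditive T] [HasZeroObject T]
    [HasShift T ℤ] [∀ n : ℤ, (shiftFunctor T n).Additive] [Pretriangulated T] [IsTriangulated T]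
    [MonoidalCategory T] [SymmetricCategory T] [TensorTriangulated T] [MonoidalClosed T]
    [HasCoproducts.{0} T] [HasProducts.{0} T] [StableCat T] [LocallySmall.{0} T]
    {F : SpaceFunctor T}

/-- the Bousfield class of a Morava `K`-theory is minimal -/
theorem acyclic_of_field (e : F.S.obj CCF ≅ (stdEven T).L) {p n : ℕ} [Fact p.Prime] (hn : 1 ≤ n)
    {K : T} [MonObj K] [IsCommMonObj K] {o : Z.Oriented F K} (hK : Z.IsMoravaPos F p n o)
    {X W : T} (hX : ¬ IsZero (K ⊗ X)) (hW : S.Acyclic X W) : S.Acyclic K W := by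
  have hp : 1 < p := (Fact.out : p.Prime).one_lt
  have hpn : 1 < p ^ n := Nat.one_lt_pow (by omega) hp
  obtain ⟨N, hN⟩ : ∃ N, N + 1 = p ^ n := ⟨p ^ n - 1, Nat.sub_add_cancel hpn.le⟩
  obtain ⟨a, w, h1, -⟩ := hK.height N hN
  obtain ⟨b, L⟩ := hK.exists_isLaurent F N hN (asIso (Z.sph e N)) a w h1
  refine isZero_of_field L (by omega) (fun l f => hK.sparse (2 * l + 1) (fun hd => ?_) f) hX hW
  have h4 : (2 : ℤ) ∣ 2 * l + 1 := (Dvd.intro _ rfl).trans hd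
  omega

theorem exists_moravaPos (F : SpaceFunctor T) {p : ℕ} [Fact p.Prime] (hp : p ≠ 2) {n : ℕ}
    (hn : 1 ≤ n) : ∃ (K : T) (_ : MonObj K) (_ : IsCommMonObj K) (o : Z.Oriented F K),
      Z.IsMoravaPos F p n o := by
  obtain ⟨n, rfl⟩ : ∃ k, n = k + 1 := ⟨n - 1, by omega⟩
  obtain ⟨K, i1, i2, -, o, h⟩ := X.exists_isMorava F hp (n + 1)
  exact ⟨K, i1, i2, o, h⟩

/-- the Koszul object of height `n` has a nonzero square -/
theorem kos_sq_ne {e : F.S.obj CCF ≅ (stdEven T).L} {D : MUData T} (H : MUUniv e D) {p n : ℕ}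
    [Fact p.Prime] (hp : p ≠ 2) (hn : 1 ≤ n) (Z' : S.KosData D.P (p : ℤ) n (D.vs p)) :
    ¬ S.Acyclic Z'.K Z'.K := by
  intro h
  obtain ⟨K, _, _, o, hK⟩ := exists_moravaPos F hp hn
  have h1 : IsZero (K ⊗ Z'.K) := Z.acyclic_of_kos H hn o hK Z' h
  have h2 : IsZero (K ⊗ K) := Z.acyclic_of_kos H hn o hK Z' (h1.of_iso (β_ _ _))
  exact hK.ne ((Z.isZero_of_tensor_ring (S.ModStr.self K) h2).eq_of_tgt _ _)

/-- **The witness**, with the localizations at the Koszul objects. -/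
theorem exists_wit {p n : ℕ} [hp : Fact p.Prime] (h1 : p ≤ n) (h2 : n ^ 2 < 2 * (p - 1) ^ 2)
    (D : MUData T) {C : T} {i : 𝟙_ T ⟶ C} {δ : C ⟶ (𝟙_ T)⟦(1 : ℤ)⟧}
    (hC : Triangle.mk ((p : ℤ) • 𝟙 (𝟙_ T)) i δ ∈ distTriang T)
    (Dn : S.KosData D.P (p : ℤ) n (D.vs p)) (Dh : S.KosData D.P (p : ℤ) (p - 1) (D.vs p))
    (Fn : S.LocFunctor Dn.K) (Fh : S.LocFunctor Dh.K) :
    ∃ f : (𝟙_ T)⟦((p : ℤ) - 1) ^ 2 * (2 * p * (p - 1) - 2)⟧ ⟶ 𝟙_ T,
      f ≫ Fn.u (𝟙_ T) = 0 ∧ f ≫ i ≫ Fh.u C ≠ 0 := by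
  have hp2 := ne_two hp.out h1 h2
  have hp1 := hp.out.two_le
  obtain ⟨U⟩ := S.exists_unitCof D.R
  obtain ⟨m, f, rfl, hf⟩ := exists_witness_MU h1 h2 D U P251.C.CV FS hC Dn
    (fun W hW => Z.acyclic_kos_of_moore Dn (by omega) hC hW) Fn Fh
    (S.grOut D U hp2 (by omega) hC Dn Fn) (S.grOut D U hp2 (by omega) hC Dh Fh)
  exact ⟨f, hf⟩

end lib

open Vale.Agent.P251.St Vale.Agent.P257.H702 Vale.Agent.P257.St Vale.Agent.P251Z

variable {T : SHCat} {S : Susp T} {R : RingSp T} {p : ℕ} [hp : Fact p.Prime]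
  {o : St.Oriented S R} {φ : GHom S p R}

/-- **`E(m)`-acyclic objects are acyclic for the Koszul objects of all heights `1 ≤ h ≤ m`.** -/
theorem kos_of_jw_le (hp2 : p ≠ 2) {m h : ℕ} (hh : 1 ≤ h) (hm : h ≤ m) (H : IsJW p m o φ)
    {D : MUData T.C} (hD : MUUniv (M.lineIso S.toSpaceFunctor) D)
    (Z' : P251.S.KosData D.P (p : ℤ) h (D.vs p)) {W : T.C}
    (hW : P251.S.Acyclic R.obj W) : P251.S.Acyclic Z'.K W := by
  have := locallySmall_self.{0} T.C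
  obtain ⟨k, rfl⟩ : ∃ k, m = k + 1 := ⟨m - 1, by omega⟩
  rcases hm.eq_or_lt with rfl | hlt
  · exact kos_of_jw hp2 H hD Z' hW
  obtain ⟨K, _, _, oK, hK⟩ := exists_moravaPos S.toSpaceFunctor hp2 hh
  obtain ⟨C, i, δ, hC⟩ := distinguished_cocone_triangle ((p : ℤ) • 𝟙 (𝟙_ T.C))
  refine Z.kos_of_acyclic hD hp2 hh hC oK hK Z'
    (acyclic_of_field (M.lineIso S.toSpaceFunctor) hh hK (fun h0 => ?_) hW)
  have h1 : IsZero (Z'.K ⊗ R.obj) := Z.kos_of_acyclic hD hp2 hh hC oK hK Z' h0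
  obtain ⟨u, hu, hlaw⟩ := exists_classify hD o
  obtain ⟨Φ, hΦ, hlaw'⟩ := exists_hom H.typ
  have J := jwRing H hΦ
  have h2 : Z.lawK D u = (P257.H80.haz p).map Φ := hlaw.trans hlaw'
  obtain ⟨b, -, -⟩ := D.exists_basis_of u hD
  obtain ⟨b', -, -⟩ := hD.basis
  obtain ⟨I, f, hf, hf'⟩ := Z.exists_free_of_basis (E := stdEven T.C) (Z.GBasis.ofAm b')
  obtain ⟨D', hD'⟩ := exists_isZero_higher Z' hlt (D.invData p (k + 1)) hf hf'
    (goodReg_of_one (fun l f => H.odd (2 * l + 1) f ⟨l, rfl⟩) b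
      (goodReg_one hD u (fun j hj x hx => by
        rw [h2] at hx ⊢
        exact J.reg hj x hx)))
    (h1.of_iso (β_ _ _))
  exact kos_sq_ne hD hp2 (by omega) D' (kos_of_jw hp2 H hD D' hD')

end Vale.Agent.N251
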