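import Mathlib.Data.Nat.Prime.Basic
import Mathlib.Algebra.Ring.Parity
import Mathlib.Tactic.Linarith
import Mathlib.Tactic.LinearCombination
import Mathlib.Tactic.IntervalCases
import Mathlib.Tactic.Ring

/-!
# N251: the numerical conditions

`p` prime, `p ≤ n`, `n² < 2 (p - 1)²`.
-/

namespace Vale.Agent.N251

/-- No weight `p (p - 1) K - q`, `1 ≤ q < (p - 1)²`, is exceptional. -/
theorem not_exc (P : ℤ) (hP : 2 ≤ P) (K q : ℤ) (h1 : 1 ≤ q) (h2 : q < (P - 1) ^ 2) :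
    ¬ ((P - 1) ∣ P * (P - 1) * K - q ∧
      (P ∣ P * (P - 1) * K - q ∨ P ∣ P * (P - 1) * K - q + 1)) := by
  rintro ⟨⟨a, ha⟩, h⟩
  obtain ⟨c, hc⟩ : ∃ c, q = (P - 1) * c := ⟨P * K - a, by linear_combination -ha⟩
  have hc1 : 1 ≤ c := by
    by_contra h3
    have : (P - 1) * c ≤ 0 := mul_nonpos_of_nonneg_of_nonpos (by omega) (by omega)
    omega
  have hc2 : c < P - 1 := by
    by_contra h3
    have : (P - 1) * (P - 1) ≤ (P - 1) * c := mul_le_mul_of_nonneg_left (by omega) (by omega)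
    nlinarith
  rcases h with ⟨b, hb⟩ | ⟨b, hb⟩
  · have h4 : P ∣ c := ⟨b - (P - 1) * K + c, by linear_combination hb + hc⟩
    have := Int.le_of_dvd (by omega) h4
    omega
  · have h4 : P ∣ c + 1 := ⟨b - (P - 1) * K + c, by linear_combination hb + hc⟩
    have := Int.le_of_dvd (by omega) h4
    omega

variable {p n : ℕ} (hp : p.Prime) (h1 : p ≤ n) (h2 : n ^ 2 < 2 * (p - 1) ^ 2)

include hp h1 h2

theorem ne_two : p ≠ 2 := by
  rintro rfl
  nlinarith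

theorem not_dvd : ¬ (p - 1) ∣ n := by
  rintro ⟨c, hc⟩
  have h3 := hp.two_le
  obtain ⟨e, rfl⟩ : ∃ e, p = e + 1 := ⟨p - 1, by omega⟩
  rw [Nat.add_sub_cancel] at hc h2
  have h4 : 2 ≤ c := by
    by_contra h5
    have : c = 0 ∨ c = 1 := by omega
    rcases this with rfl | rfl <;> omega
  have h5 : e * 2 ≤ n := hc ▸ Nat.mul_le_mul_left e h4
  nlinarith

theorem sq_add_three : n ^ 2 + 1 + 2 ≤ 2 * (p - 1) ^ 2 := by
  obtain ⟨e, he⟩ := hp.odd_of_ne_two (ne_two hp h1 h2)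
  have h3 : (p - 1) ^ 2 = 4 * e ^ 2 := by
    rw [he, Nat.add_sub_cancel]
    ring
  have h4 : n ^ 2 % 8 = 0 ∨ n ^ 2 % 8 = 1 ∨ n ^ 2 % 8 = 4 := by
    rw [Nat.pow_mod]
    have : n % 8 < 8 := Nat.mod_lt _ (by norm_num)
    generalize n % 8 = r at this ⊢
    interval_cases r <;> simp
  rw [h3] at h2 ⊢
  omega

end Vale.Agent.N251
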