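import Vale.Agent.P251CY.Lay

/-!
# N251, statement layer: Morava `K`-theory, Johnson-Wilson spectra, localizations, completion

The definitions of `P251HL/St.lean`, some of them in a shorter form, and the canonical map.
-/

open CategoryTheory MonoidalCategory

noncomputable section

namespace Vale.Agent.P251CY.N

open Vale.Agent.P251.St Vale.Agent.P251.St.SHCat

variable {T : SHCat} {S : Susp T} {R : RingSp T}

/-- `π_k R = 0` unless `d` divides `k`, and `π_0 R = 𝔽_p`. -/
structure IsPeriodicField (R : RingSp T) (p : ℕ) (d : ℤ) : Prop where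
  sparse : ∀ (k : ℤ) (f : Hom (sphere T k) R.obj), ¬ d ∣ k → f = nul _ _
  char : zmul p R.unit = nul _ _
  ne : R.unit ≠ nul _ _
  gen : ∀ f : Hom T.one R.obj, ∃ a : ℤ, f = zmul a R.unit

/-- The equation `x ^ (N + 1) = w [p](x)` on the projective space of `ℂ^A`: `e` is the zero section
of `N + 1` copies of the tautological line bundle, and `t` is the one of its `p`-th tensor
power. -/
def SeriesOn (p : ℕ) {N : ℕ} (o : Oriented S R) (w : Coh S R N Pn) (A : Type) [Fintype A] : Prop :=
  ∀ (e : Map (CP A) (Th (N + 1) (Fin (N + 1) × A))) (t : Map (CP A) (Th 1 (Fin p → A)))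
    (q : Map (Pn.prod (CP A)) (CP A)),
    IsSec e (fun x i j => if i.1 = j.1 then mat x i.2 j.2 else 0) →
    IsSec t (fun x i j => ∏ k, mat x (i k) (j k)) →
    (∀ x, q.toFun (Space.pt ((), x)) = Space.pt x) →
    IsCross w (pb t (o.θ _ _)) (pb q (pb e (o.θ _ _)))

/-- The `p`-series of the orientation `o` is `[p](x) = v x ^ (N + 1)` modulo `x ^ (N + 2)` with an
invertible `v ∈ π_{2N} R`. Here `w ∈ R^{2N}(pt)` is the inverse of `v`; the equation
`x ^ (N + 1) = w [p](x)` is stated on the projective space of `ℂ^(N + 2)`. -/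
def HasPSeries (p N : ℕ) (o : Oriented S R) : Prop :=
  ∃ (v : PiR S R N) (w : Coh S R N Pn),
    comp S.unit (comp w (comp (tenHom (ident R.obj) v) R.mul)) = R.unit ∧
      SeriesOn p o w (Fin (N + 2))

/-- `R` is a Morava `K`-theory of height `n ≥ 1` at the prime `p`. -/
def IsMorava (S : Susp T) (R : RingSp T) (p n : ℕ) : Prop :=
  IsPeriodicField R p (2 * ((p : ℤ) ^ n - 1)) ∧ ∃ o : Oriented S R, HasPSeries p (p ^ n - 1) o

/-- `R`, with the `p`-typical complex orientation `o` and the homomorphism of graded rings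
`φ : ℤ[v_1, v_2, …] → π_* R` which classifies its formal group law, is the Johnson-Wilson spectrum
`E(n)` at `p`: `R` is `p`-local and `π_* R = ℤ_(p)[v_1, …, v_n, v_n⁻¹]`. That is: the odd homotopy
groups vanish; `v_n` is invertible; every `y ∈ π_{2k} R` is a fraction `x / (m v_n ^ j)`, where `m`
is an integer prime to `p` (for `k ≥ 0`; the case `k < 0` follows since `v_n` is invertible); and
the kernel of `φ` is the ideal `(v_{n+1}, v_{n+2}, …)`. -/
structure IsJW (p n : ℕ) (o : Oriented S R) (φ : GHom S p R) : Prop where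
  typ : IsPTyp p o φ
  odd : ∀ (k : ℤ) (f : Hom (sphere T k) R.obj), Odd k → f = nul _ _
  inv : ∃ (d : ℕ) (u : VPoly p d) (w : Hom T.one (ten R.obj (Sn S d))),
    u.pol = vEl p n ∧ comp w (comp (tenL R.obj (φ.val u)) R.mul) = R.unit
  gen : ∀ (k : ℕ) (y : PiR S R k), ∃ (m : ℤ) (j d : ℕ) (u : VPoly p d) (x : VPoly p (d + k)),
    ¬ (p : ℤ) ∣ m ∧ u.pol = vEl p n ^ j ∧ IsProd (φ.val u) (zmul m y) (φ.val x)
  ker : ∀ (k : ℕ) (x : VPoly p k), φ.val x = nul _ _ ↔ x.pol ∈ Ideal.span (vEl p '' {i | n < i})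

/-- `W` is `E`-acyclic: `E ⊗ W = 0`. -/
def Acyclic (E W : T.C) : Prop := ident (ten E W) = nul _ _

/-- `f : X ⟶ Y` is the Bousfield localization of `X` with respect to `E`. -/
def IsLoc (E : T.C) {X Y : T.C} (f : Hom X Y) : Prop :=
  IsIso (tenHom (ident E) f) ∧ ∀ W, Acyclic E W → ∀ g : Hom W Y, g = nul _ _

/-- `Y` is the derived `p`-completion `holim_j X / p ^ j` of `X`: `M j` is the cofibre of `p ^ j` on
`X`, the maps `t j : M (j + 1) ⟶ M j` are compatible with the identity of `X` and with `p` on its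
suspension, `P` is the product of the `M j`, with projections `q j`, and `Y` is the fibre of the map
`s = 1 - t` of `P`. -/
inductive IsCompl (p : ℕ) (X Y : T.C) : Prop
  | mk (M : ℕ → T.C) (i : ∀ j, Hom X (M j)) (d : ∀ j, Hom (M j) (sus X))
    (t : ∀ j, Hom (M (j + 1)) (M j)) (P : T.C) (q : ∀ j, Hom P (M j)) (s : Hom P P) (u : Hom Y P)
    (h : Hom P (sus Y)) :
    (∀ j, Dist (zmul (p ^ j) (ident X)) (i j) (d j) ∧ comp (i (j + 1)) (t j) = i j ∧
      comp (t j) (d j) = zmul p (d (j + 1)) ∧ comp s (q j) = q j - comp (q (j + 1)) (t j)) →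
    (∀ (W : T.C) (x : ∀ j, Hom W (M j)), ∃! y, ∀ j, comp y (q j) = x j) → Dist u s h →
    IsCompl p X Y

/-- `i : X ⟶ Y` is the canonical map `L_E S_p ⟶ L_E L_K S_p`. Here `A` is the `p`-completion `S_p`
of the sphere, `l : A ⟶ X` its `E`-localization, `z : A ⟶ Z` its `K`-localization, `y : Z ⟶ Y` the
`E`-localization of `Z`, and `i` is the induced map. -/
inductive IsCan (p : ℕ) (E K : T.C) {X Y : T.C} (i : Hom X Y) : Prop
  | mk (A Z : T.C) (l : Hom A X) (z : Hom A Z) (y : Hom Z Y) : IsCompl p T.one A → IsLoc E l →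
    IsLoc K z → IsLoc E y → comp l i = comp z y → IsCan p E K i

end Vale.Agent.P251CY.N
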