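import Vale.Agent.N251.St
import Vale.Agent.N251.JW
import Vale.Agent.P251HL.Top
import Vale.Agent.P251CX.Top

/-!
# N251: chromatic splitting fails for all primes `p` and all `p ≤ n` with `n² < 2 (p - 1)²`
-/

open CategoryTheory MonoidalCategory Limits Pretriangulated

namespace Vale.Agent.N251

open Vale.Agent.P251.St (SHCat Susp)
open Vale.Agent.P251 Vale.Agent.P251.St.SHCat Vale.Agent.P251CY

variable {T : SHCat} {S : Susp T} {p n : ℕ}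

theorem isMorava_iff (R : RingSp T) : N.IsMorava S R p n ↔ H.IsMorava S R p n :=
  and_congr ⟨fun h => ⟨h.1, h.2, h.3, h.4⟩, fun h => ⟨h.1, h.2, h.3, h.4⟩⟩ Iff.rfl

theorem isJW_iff (hp : p ≠ 0) {R : RingSp T} (o : Oriented S R) (φ : GHom S p R) :
    N.IsJW p n o φ ↔ H.IsJW p n o φ := by
  refine ⟨fun h => ⟨h.1, h.2, ?_, h.4, h.5⟩, fun h => ⟨h.1, h.2, ?_, h.4, h.5⟩⟩
  · obtain ⟨d, ⟨u, hu⟩, w, h1, h2⟩ := h.3
    obtain rfl : u = vEl p n := h1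
    have h0 : vEl p n ≠ 0 := by
      unfold vEl
      split_ifs
      · exact Nat.cast_ne_zero.2 hp
      · exact MvPolynomial.X_ne_zero _
    obtain rfl : d = p ^ n - 1 :=
      MvPolynomial.IsWeightedHomogeneous.inj_right h0 hu (H.vEl_mem p n)
    exact ⟨w, h2⟩
  · obtain ⟨w, hw⟩ := h.3
    exact ⟨_, ⟨vEl p n, H.vEl_mem p n⟩, w, rfl, hw⟩

theorem exists_unit {X Y : T.C} (h : N.IsCompl p X Y) : ∃ c : Hom X Y, H.IsCompl p c := by
  obtain ⟨M, i, d, t, P, q, s, u, h, h1, h2, h3⟩ := h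
  obtain ⟨I, hI, -⟩ := h2 X i
  have h0 : I ≫ s = 0 := by
    refine (h2 X fun _ => 0).unique (fun j => ?_) (fun j => zero_comp)
    have a1 : s ≫ q j = q j - q (j + 1) ≫ t j := (h1 j).2.2.2
    have a2 : i (j + 1) ≫ t j = i j := (h1 j).2.1
    have a3 : ∀ j, I ≫ q j = i j := hI
    change (I ≫ s) ≫ q j = 0
    rw [Category.assoc, a1, Preadditive.comp_sub, ← Category.assoc, a3, a3, a2, sub_self]
  obtain ⟨c, hc⟩ : ∃ c : X ⟶ Y, I = c ≫ u := Triangle.coyoneda_exact₂ _ h3 I h0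
  refine ⟨c, M, i, d, t, P, q, s, u, fun j => ⟨(h1 j).1, (h1 j).2.1, (h1 j).2.2.1, (h1 j).2.2.2,
    ?_⟩, h2, h, h3⟩
  change c ≫ u ≫ q j = i j
  rw [← Category.assoc, ← hc]
  exact hI j

theorem exists_can (T : SHCat) (p : ℕ) (E K : T.C) :
    ∃ (X Y : T.C) (i : Hom X Y), N.IsCan p E K i := by
  obtain ⟨A, X, Z, Y, c, l, z, y, i, ⟨M, i', d, t, P, q, s, u, h1, h2, h, h3⟩, hl, hz, hy, hi⟩ :=
    P251HL.exists_diag T p E K
  exact ⟨X, Y, i, A, Z, l, z, y, ⟨M, i', d, t, P, q, s, u, h, fun j => ⟨(h1 j).1, (h1 j).2.1,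
    (h1 j).2.2.1, (h1 j).2.2.2.1⟩, h2, h3⟩, hl, hz, hy, hi⟩

theorem moravaPos {K : RingSp T} (hn : 1 ≤ n) (hK : H.IsMorava S K p n) :
    ∃ o : Z.Oriented S.toSpaceFunctor K.obj, Z.IsMoravaPos S.toSpaceFunctor p n o := by
  have h1 := P251.St.isMorava_of S K.toOld
    ((P251CY.isMorava_iff p n).1 ((P251HL.isMorava_iff (by omega) K).1 hK))
  obtain ⟨n, rfl⟩ : ∃ k, n = k + 1 := ⟨n - 1, by omega⟩
  exact h1.2

/-- The kernel, for every `u : S ⟶ A` through which `S ⟶ S / p` factors. -/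
theorem ker_moore (S : Susp T) (p n : ℕ) (hp : p.Prime) (h1 : p ≤ n)
    (h2 : n ^ 2 < 2 * (p - 1) ^ 2) (K : RingSp T) (hK : H.IsMorava S K p n) (E : RingSp T)
    (hE : (∃ (k : ℕ) (o : Oriented S E) (φ : GHom S p E), p - 1 ≤ k ∧ H.IsJW p k o φ) ∨
      H.IsMorava S E p (p - 1)) {M : T.C} {a : Hom T.one M} {b : Hom M (sus T.one)}
    (hM : Dist (zmul p (ident T.one)) a b) {A : T.C} (u : Hom T.one A) (g : Hom A M)
    (hg : comp u g = a) {X Z' Y : T.C} {l : Hom A X} {z : Hom A Z'} {y : Hom Z' Y} {i : Hom X Y}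
    (hl : H.IsLoc E.obj l) (hz : H.IsLoc K.obj z) (hi : comp l i = comp z y) :
    ∃ f : Hom (sphere T (((p : ℤ) - 1) ^ 2 * (2 * p * (p - 1) - 2))) X,
      f ≠ nul _ _ ∧ comp f i = nul _ _ := by
  have : Fact p.Prime := ⟨hp⟩
  have := locallySmall_self.{0} T.C
  have hp1 := hp.two_le
  have hp2 := ne_two hp h1 h2
  obtain ⟨D, hD⟩ := P251.M.MU_univ T.C S.toSpaceFunctor (P251.M.lineIso S.toSpaceFunctor)
  obtain ⟨Dn⟩ := P251.S.exists_kosData D.P (p : ℤ) n (D.vs p)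
  obtain ⟨Dh⟩ := P251.S.exists_kosData D.P (p : ℤ) (p - 1) (D.vs p)
  obtain ⟨Fn⟩ := Z.nonempty_locFunctor' Dn.K
  obtain ⟨Fh⟩ := Z.nonempty_locFunctor' Dh.K
  obtain ⟨oK, hK'⟩ := moravaPos (by omega) hK
  have hKn : ∀ W, P251.S.Acyclic Dn.K W → P251.S.Acyclic K.obj W := fun W hW =>
    Z.acyclic_of_kos hD (by omega) oK hK' Dn hW
  have hEh : ∀ W, P251.S.Acyclic E.obj W → P251.S.Acyclic Dh.K W := by
    intro W hW
    rcases hE with ⟨k, o, φ, hk, hE⟩ | hE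
    · exact kos_of_jw_le hp2 (by omega) hk
        ((P251CY.isJW_iff p k o φ).1 ((P251HL.isJW_iff o φ).1 hE)) hD Dh hW
    · obtain ⟨oE, hE'⟩ := moravaPos (by omega) hE
      exact Z.kos_of_acyclic hD hp2 (by omega) hM oE hE' Dh hW
  obtain ⟨f, hI, hII⟩ := exists_wit h1 h2 D hM Dn Dh Fn Fh
  have hZ : P251.S.IsLocal Dn.K Z' := Z.isLocal_mono hKn ((P251.St.isLoc_iff _ z).mp hz).2
  obtain ⟨q, hq⟩ := Z.isLocal_factor (Z.isLocal_mono hEh (Fh.isLocal M)) l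
    ((P251.St.isLoc_iff _ l).mp hl).1 (g ≫ Fh.u M)
  have h3 : f ≫ u ≫ z = 0 := by
    rw [← Fn.u_desc hZ (u ≫ z), ← Category.assoc f, hI, zero_comp]
  have hi' : l ≫ i = z ≫ y := hi
  have hg' : u ≫ g = a := hg
  refine ⟨f ≫ u ≫ l, fun h => hII ?_, ?_⟩
  · have h' : f ≫ u ≫ l = 0 := h
    rw [← hg', Category.assoc, ← hq, ← Category.assoc u, ← Category.assoc f, h', zero_comp]
  · change (f ≫ u ≫ l) ≫ i = 0
    rw [Category.assoc, Category.assoc, hi', ← Category.assoc u, ← Category.assoc f, h3,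
      zero_comp]

theorem split_fails (S : Susp T) (p n : ℕ) (hp : p.Prime) (h1 : p ≤ n)
    (h2 : n ^ 2 < 2 * (p - 1) ^ 2) (K E : RingSp T) (hK : N.IsMorava S K p n)
    (hE : (∃ (o : Oriented S E) (φ : GHom S p E), N.IsJW p (n - 1) o φ) ∨
      N.IsMorava S E p (p - 1)) (X Y : T.C) (i : Hom X Y) (hi : N.IsCan p E.obj K.obj i) :
    (¬ ∃ r : Hom Y X, comp i r = ident X) ∧
    (¬ ∃ (B : T.C) (k : Hom B Y), ∀ (V : T.C) (x : Hom X V) (b : Hom B V),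
      ∃! u : Hom Y V, comp i u = x ∧ comp k u = b) ∧
    ∃ (m : ℤ) (f : Hom (sphere T m) X), m = (p - 1) ^ 2 * (2 * p ^ 2 - 2 * p - 2) ∧
      f ≠ nul _ _ ∧ comp f i = nul _ _ := by
  obtain ⟨A, Z, l, z, y, hA, hl, hz, -, hi⟩ := hi
  obtain ⟨c, M, j, d, t, P, q, s, u, h, -⟩ := exists_unit hA
  obtain ⟨hd, -, -, -, hj⟩ := h 1
  rw [pow_one] at hd
  obtain ⟨f, hf, hf'⟩ := ker_moore S p n hp h1 h2 K ((isMorava_iff K).1 hK) E
    (hE.imp (fun ⟨o, φ, h⟩ => ⟨n - 1, o, φ, by omega, (isJW_iff hp.ne_zero o φ).1 h⟩)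
      (isMorava_iff E).1) hd c _ hj hl hz hi
  have hr : ¬ ∃ r : Hom Y X, comp i r = ident X := by
    rintro ⟨r, hr⟩
    have hr' : i ≫ r = 𝟙 X := hr
    have h5 : f ≫ i = 0 := hf'
    refine hf ?_
    change f = 0
    rw [← Category.comp_id f, ← hr', ← Category.assoc, h5, zero_comp]
  refine ⟨hr, ?_, _, f, by ring, hf, hf'⟩
  rintro ⟨B, k, hk⟩
  obtain ⟨r, ⟨hr', -⟩, -⟩ := hk X (ident X) (nul _ _)
  exact hr ⟨r, hr'⟩

theorem exists_objects (S : Susp T) (p n : ℕ) (hp : p.Prime) (hn : 1 ≤ n) :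
    (p ≠ 2 → ∃ K : RingSp T, N.IsMorava S K p n) ∧
      ∃ (E : RingSp T) (o : Oriented S E) (φ : GHom S p E), N.IsJW p n o φ := by
  refine ⟨fun h2 => ?_, ?_⟩
  · obtain ⟨K, hK⟩ := P251HL.exists_morava S p n hp h2 hn
    exact ⟨K, (isMorava_iff K).2 hK⟩
  · obtain ⟨E, o, φ, h⟩ := P251HL.exists_jw S p n hp hn
    exact ⟨E, o, φ, (isJW_iff hp.ne_zero o φ).2 h⟩

end Vale.Agent.N251
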