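import Vale.Agent.P251.S.Final
import Vale.Agent.N251.Int

/-!
# N251: the witness for a class of filtration two of arbitrary weight

`x : 𝟙⟦2 W⟧ ⟶ J ⊗ J` is a class of filtration `2` and weight `W`. Its `N`-th power dies in a
localization whose `E_2`-term vanishes above `s₁`, if `s₁ + 2 ≤ 2 N`, and survives in a localization
whose `E_2`-term is sparse, if no weight `W K - q`, `1 ≤ q < N`, is exceptional.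
-/

open CategoryTheory MonoidalCategory Limits Pretriangulated MonObj

open scoped ZeroObject

set_option linter.unusedSectionVars false

universe v u

namespace Vale.Agent.N251

open Vale.Agent.P251.T Vale.Agent.P251.S

/-- The detection argument, for an arbitrary weight and an arbitrary exceptional set. -/
theorem detection_gen {C : Couple.{u, v}} {a W : ℤ} (ha : a = 2 * W - 2) (M : C.Mul2 a)
    (u : C.D 0 0) (N : ℕ) (Exc : ℤ → Prop)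
    (hexc : ∀ K q : ℕ, 1 ≤ q → q < N → ¬ Exc (W * K - q))
    (hodd : ∀ (s : ℕ) (n : ℤ), Odd (n + s) → ∀ z : C.E s n, z = 0) (s₀ : ℕ)
    (hvan : ∀ (s : ℕ) (m w : ℤ), m + ((s + 2 : ℕ) : ℤ) = 2 * w → s₀ ≤ s →
      ¬ Exc w → C.Van (s + 1) m)
    (hdet : ∀ K, C.j _ _ (M.pow u K) ≠ 0)
    (hdet' : ∀ K s, ∀ h : s + 1 = 2 * K,
      ¬ C.IsCobdy (h ▸ C.j _ _ (M.pow u K) : C.E (s + 1) (Couple.Mul2.deg a 0 K))) :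
    C.proj (Couple.Mul2.deg a 0 N) (Nat.zero_le _) (M.pow u N) ≠ 0 := by
  intro h0
  refine M.detection u N (s₀ + 1) h0 hdet hdet' ?_
  intro K s r hr2 hrN hsr hs
  obtain ⟨s, rfl⟩ : ∃ t, s = t + 1 := ⟨s - 1, by omega⟩
  rcases Nat.even_or_odd r with he | ho
  · intro b _
    refine ⟨0, ?_⟩
    rw [map_zero]
    refine (hodd _ _ ?_ b).symm
    obtain ⟨q, rfl⟩ := he
    have : (0 + (K : ℤ) * a + 1) + ((s + 1 + 1 : ℕ) : ℤ) = 2 * (W * K - q) + 1 := by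
      have : ((s + 1 + 1 + (q + q) : ℕ) : ℤ) = 2 * K := by exact_mod_cast hsr
      push_cast at this ⊢
      rw [ha]
      linarith
    rw [this]
    exact ⟨_, rfl⟩
  · obtain ⟨q, rfl⟩ := ho
    have hK : ((s + 1 + 1 + (2 * q + 1) : ℕ) : ℤ) = 2 * K := by exact_mod_cast hsr
    have hm : (0 + (K : ℤ) * a + 1) + ((s + 2 : ℕ) : ℤ) = 2 * (W * K - q) := by
      push_cast at hK ⊢
      rw [ha]
      linarith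
    exact hvan s _ _ hm (by omega) (hexc K q (by omega) (by omega))

variable {T : Type u} [Category.{v} T] [Preadditive T] [HasZeroObject T]
    [HasShift T ℤ] [∀ n : ℤ, (shiftFunctor T n).Additive] [Pretriangulated T] [IsTriangulated T]
    [MonoidalCategory T] [SymmetricCategory T] [TensorTriangulated T] [MonoidalClosed T]
    [HasCoproducts.{0} T] [HasProducts.{0} T] [StableCat T]

/-- The first half: the power dies above the vanishing line. -/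
theorem partI_gen (X : Tow T) {C : T} {p : ℤ} {i : 𝟙_ T ⟶ C} {δ : C ⟶ (𝟙_ T)⟦(1 : ℤ)⟧}
    (hC : Triangle.mk (p • 𝟙 (𝟙_ T)) i δ ∈ distTriang T) {K R : T} (F : LocFunctor K)
    (hK : ∀ W, Acyclic C W → Acyclic K W)
    (hR : ∀ s, R ◁ X.c s = 0) {a' : ℕ} (hKR : Built (IsRMul R) a' K) {b : ℕ}
    (hKF : Built FinEven b K) (k a : ℤ) (hk : k = a + 2)
    (ξ : ∀ s, (X.J s)⟦k⟧ ⟶ X.J (s + 2))
    (hξ : ∀ s, ξ (s + 1) ≫ X.c (s + 2) =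
      (X.c s)⟦k⟧' ≫ (shiftFunctorComm T (1 : ℤ) k).hom.app (X.J s) ≫ (ξ s)⟦(1 : ℤ)⟧')
    (u : (X.couple (𝟙_ T)).D 0 0) (N s₁ : ℕ) (hN : s₁ + 2 ≤ 2 * N)
    (hodd : ∀ (s : ℕ) (n : ℤ), Odd (n + s) →
      ∀ z : ((X.map (tensorRight C ⋙ F.L)).couple (𝟙_ T)).E s n, z = 0)
    (hvan : ∀ s, s₁ ≤ s → ∀ n : ℤ, ((X.map (tensorRight C ⋙ F.L)).couple (𝟙_ T)).Van s n) :
    (X.unitDMor (𝟙_ T) F.unit).f 0 _ (X.powMap (𝟙_ T) k a hk ξ hξ u N) = 0 := by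
  obtain ⟨N, rfl⟩ : ∃ N', N = N' + 1 := ⟨N - 1, by omega⟩
  rw [Tow.unitDMor_powMap]
  have h := converge_int hC F hK X hR hKR hKF (fun s n h => hodd s n (Int.odd_iff.2 h)) s₁ hvan
    (2 * N + 1) (by omega) (Couple.Mul2.deg a 0 (N + 1))
    ((X.mapMul2 (𝟙_ T) F.L k a hk ξ hξ).pow ((X.unitDMor (𝟙_ T) F.unit).f 0 0 u) (N + 1))
  have h2 := ((X.map F.L).couple (𝟙_ T)).proj_succ
    (Couple.Mul2.deg a 0 (N + 1)) (Nat.zero_le (2 * N + 1))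
    ((X.mapMul2 (𝟙_ T) F.L k a hk ξ hξ).pow ((X.unitDMor (𝟙_ T) F.unit).f 0 0 u) (N + 1))
  refine Eq.trans h2 ?_
  rw [h, Couple.proj_zero']

/-- **Assembly of the witness.** -/
theorem exists_witness_gen {R : T} [MonObj R] (U : UnitCof R) {C : T} {p : ℤ} {i : 𝟙_ T ⟶ C}
    {δ : C ⟶ (𝟙_ T)⟦(1 : ℤ)⟧} (hC : Triangle.mk (p • 𝟙 (𝟙_ T)) i δ ∈ distTriang T)
    {K₅ K₄ : T} (F₅ : LocFunctor K₅) (F₄ : LocFunctor K₄)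
    (hK : ∀ W, Acyclic C W → Acyclic K₅ W)
    {a : ℕ} (hKR : Built (IsRMul R) a K₅) {b : ℕ} (hKF : Built FinEven b K₅)
    (W : ℕ) (N s₁ : ℕ) (hN : s₁ + 2 ≤ 2 * N) (Exc : ℤ → Prop)
    (hexc : ∀ K q : ℕ, 1 ≤ q → q < N → ¬ Exc ((W : ℤ) * K - q))
    (x : (𝟙_ T)⟦2 * (W : ℤ)⟧ ⟶ U.cobar.B 2 (𝟙_ T))
    (z : (𝟙_ T)⟦2 * (W : ℤ)⟧ ⟶ U.cobar.Q 3 (𝟙_ T))
    (hz : z ≫ U.cobar.q 2 (𝟙_ T) = x ≫ unitMap R (U.cobar.B 2 (𝟙_ T)))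
    (hdz : z ≫ U.cobar.d 3 (𝟙_ T) = 0)
    (hodd₅ : ∀ (s : ℕ) (n : ℤ), Odd (n + s) →
      ∀ z : (((U.tow (𝟙_ T)).map (tensorRight C ⋙ F₅.L)).couple (𝟙_ T)).E s n, z = 0)
    (hvan₅ : ∀ s, s₁ ≤ s → ∀ n : ℤ,
      (((U.tow (𝟙_ T)).map (tensorRight C ⋙ F₅.L)).couple (𝟙_ T)).Van s n)
    (hodd₄ : ∀ (s : ℕ) (n : ℤ), Odd (n + s) →
      ∀ z : (((U.tow (𝟙_ T)).map (tensorRight C ⋙ F₄.L)).couple (𝟙_ T)).E s n, z = 0)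
    (s₀ : ℕ)
    (hvan₄ : ∀ (s : ℕ) (m w : ℤ), m + ((s + 2 : ℕ) : ℤ) = 2 * w → s₀ ≤ s → ¬ Exc w →
      (((U.tow (𝟙_ T)).map (tensorRight C ⋙ F₄.L)).couple (𝟙_ T)).Van (s + 1) m)
    (hND : ∀ K : ℕ, ¬ ∃ c' : (𝟙_ T)⟦Couple.Mul2.deg (2 * (W : ℤ)) 0 (K + 1)⟧ ⟶
      (tensorRight C ⋙ F₄.L).obj (U.cobar.Q (2 * K + 2) (𝟙_ T)),
        c' ≫ (tensorRight C ⋙ F₄.L).map (U.cobar.d (2 * K + 2) (𝟙_ T)) =
          U.zpow (𝟙_ T) z (uOne T ≫ unitMap R (𝟙_ T)) (K + 1) ≫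
            (locRed i F₄).app (U.cobar.Q (2 * K + 3) (𝟙_ T))) :
    ∃ (m : ℤ) (f : (𝟙_ T)⟦m⟧ ⟶ 𝟙_ T), m = N * (2 * (W : ℤ) - 2) ∧
      f ≫ F₅.unit.app (𝟙_ T) = 0 ∧ f ≫ i ≫ F₄.unit.app C ≠ 0 := by
  have hk : 2 * (W : ℤ) = (2 * (W : ℤ) - 2) + 2 := by ring
  have hξ : ∀ s, U.ξ (2 * (W : ℤ)) x (s + 1) ≫ (U.tow (𝟙_ T)).c (s + 2) =
      ((U.tow (𝟙_ T)).c s)⟦2 * (W : ℤ)⟧' ≫
        (shiftFunctorComm T (1 : ℤ) (2 * (W : ℤ))).hom.app ((U.tow (𝟙_ T)).J s) ≫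
        (U.ξ (2 * (W : ℤ)) x s)⟦(1 : ℤ)⟧' := fun s => U.ξ_comm_of_even W rfl x s
  let f : ((U.tow (𝟙_ T)).couple (𝟙_ T)).D 0 (Couple.Mul2.deg (2 * (W : ℤ) - 2) 0 N) :=
    (U.tow (𝟙_ T)).powMap (𝟙_ T) (2 * (W : ℤ)) (2 * (W : ℤ) - 2) hk (U.ξ (2 * (W : ℤ)) x) hξ
      (U.uD (𝟙_ T) (uOne T)) N
  have h₅ : ((U.tow (𝟙_ T)).unitDMor (𝟙_ T) F₅.unit).f 0 _ f = 0 :=
    partI_gen (U.tow (𝟙_ T)) hC F₅ hK (U.whisker_tow_c _) hKR hKF _ _ hk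
      (U.ξ (2 * (W : ℤ)) x) hξ (U.uD (𝟙_ T) (uOne T)) N s₁ hN hodd₅ hvan₅
  have h₄ : ((U.tow (𝟙_ T)).unitDMor (𝟙_ T) (locRed i F₄)).f 0 _ f ≠ 0 := fun h =>
    detection_gen rfl _ _ N Exc hexc hodd₄ s₀ hvan₄
      (U.j_pow_ne_zero (𝟙_ T) hk x hξ z hz (uOne T) (locRed i F₄) hdz hND)
      (U.not_isCobdy_pow (𝟙_ T) hk x hξ z hz (uOne T) (locRed i F₄) hdz hND)
      (((U.tow (𝟙_ T)).unitDMor_powMap (𝟙_ T) (locRed i F₄) _ _ hk (U.ξ (2 * (W : ℤ)) x) hξ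
        (U.uD (𝟙_ T) (uOne T)) N).symm.trans h)
  refine ⟨Couple.Mul2.deg (2 * (W : ℤ) - 2) 0 N + ((0 : ℕ) : ℤ), f, ?_, ?_, ?_⟩
  · rw [Couple.Mul2.deg_eq]
    push_cast
    ring
  · exact h₅
  · exact fun h => h₄ ((locRed_unit_eq_zero_iff i F₄ _).1 h)

end Vale.Agent.N251
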