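import Vale.Agent.N251.Wit
import Vale.Agent.N251.Num
import Vale.Agent.P251.S.Final2
import Vale.Agent.P251.S.CupPow
import Vale.Agent.P251.F.LTFinal
import Vale.Agent.P251.F.Detect

/-!
# N251: the witness `β₁ ^ ((p - 1)²)`, for all `p ≤ n`, `n² < 2 (p - 1)²`

* `vanish_height`: the cohomology of `v_n⁻¹ Laz / (p, I_n ^ j)` vanishes above `n²`, for every
  height `n` which is not divisible by `p - 1`;
* `exists_witness_MU`: an element of the stem `(p - 1)² (2 p (p - 1) - 2)` which dies in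
  `L_{K(n)} S` and survives in `L_{K(p-1)} S/p`.
-/

open CategoryTheory MonoidalCategory Limits Pretriangulated MonObj

open scoped ZeroObject

set_option linter.unusedSectionVars false

universe v u v' u'

namespace Vale.Agent.N251

open Vale.Agent.P251 Vale.Agent.P251.T Vale.Agent.P251.M Vale.Agent.P251.F Vale.Agent.P251.I
  Vale.Agent.P251.B Vale.Agent.P251.S

/-- Vanishing above `n²` at every height `n` which is not divisible by `p - 1`. -/
theorem vanish_height (hCV : CV_statement) (p n : ℕ) [Fact p.Prime] (hp : p ≠ 2)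
    (hn : ¬ (p - 1) ∣ n) (w : ℤ) (s : ℕ) (hs : n ^ 2 ≤ s) : (towerN p n w).ProZero s := by
  have hn0 : n ≠ 0 := by
    rintro rfl
    exact hn (dvd_zero _)
  obtain ⟨k, _, _, _, H, _, hH, hk, ⟨X⟩⟩ := hasTTower p n hn0
  let D : GData p n := GData.ofHonda hH hk (by omega) X
  have hD : ∀ g : D.G, g ^ p = 1 → g = 1 := fun g hg => hH.eq_one_of_pow_p hn g hg
  intro j
  refine ⟨j, le_refl j, ?_⟩
  rintro ⟨z, hz⟩ hdz
  obtain ⟨y, hy, hdy⟩ := D.X.vanish j w s (hCV p (n ^ 2) D.G hp D.unif hD (D.X.M w j)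
    (D.X.p_smul w j) (s + 1) (by omega)) z hz (congrArg Subtype.val hdz)
  refine ⟨⟨y, hy⟩, Eq.trans ?_ ((towerN p n w).res_self (s + 1) j _).symm⟩
  exact Subtype.ext hdy

section van

variable {T : Type u} [Category.{v} T] [Preadditive T] [HasZeroObject T] [HasShift T ℤ]
  [∀ n : ℤ, (shiftFunctor T n).Additive] [Pretriangulated T] [MonoidalCategory T]
  [SymmetricCategory T] [TensorTriangulated T]
  {D : Type u'} [Category.{v'} D] [Preadditive D] [HasZeroObject D] [HasShift D ℤ]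
  [∀ n : ℤ, (shiftFunctor D n).Additive] [Pretriangulated D]
  {R : T} [MonObj R] {U : UnitCof R} {Y : T} {F : T ⥤ D} [F.CommShift ℤ]
  [F.IsTriangulated] {P : D}

/-- The vanishing line at height `n`. -/
theorem van_height (hCV : CV_statement) (p n : ℕ) [Fact p.Prime] (hp : p ≠ 2)
    (hn : ¬ (p - 1) ∣ n) (Φ : ∀ w : ℤ, U.CobModel Y F P w (towerN p n w))
    (hodd : ∀ (s : ℕ) (t : ℤ), Odd t → ∀ x : P⟦t⟧ ⟶ F.obj (U.cobar.Q (s + 1) Y), x = 0)
    (s : ℕ) (hs : n ^ 2 + 1 ≤ s) (m : ℤ) : (((U.tow Y).map F).couple P).Van s m := by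
  obtain ⟨s, rfl⟩ : ∃ t, s = t + 1 := ⟨s - 1, by omega⟩
  rcases Int.even_or_odd (m + ((s + 2 : ℕ) : ℤ)) with he | ho
  · obtain ⟨w, hw⟩ := he
    exact (Φ w).van (by rw [hw]; ring) (towerN_r_surjective p n w s)
      (vanish_height hCV p n hp hn w s (by omega))
      (vanish_height hCV p n hp hn w (s + 1) (by omega))
  · intro b _
    refine ⟨0, ?_⟩
    rw [map_zero]
    exact (UnitCof.E_eq_zero_of_odd hodd (s + 1 + 1) m ho b).symm

end van

variable {T : Type u} [Category.{v} T] [Preadditive T] [HasZeroObject T]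
    [HasShift T ℤ] [∀ n : ℤ, (shiftFunctor T n).Additive] [Pretriangulated T] [IsTriangulated T]
    [MonoidalCategory T] [SymmetricCategory T] [TensorTriangulated T] [MonoidalClosed T]
    [HasCoproducts.{0} T] [HasProducts.{0} T] [StableCat T]

/-- **The witness from `MUData`.** -/
theorem exists_witness_MU {p n : ℕ} [hp : Fact p.Prime] (h1 : p ≤ n)
    (h2 : n ^ 2 < 2 * (p - 1) ^ 2) (D : MUData T) (U : UnitCof D.R)
    (hCV : CV_statement) (hFS : FS_statement) {C : T} {i : 𝟙_ T ⟶ C}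
    {δ : C ⟶ (𝟙_ T)⟦(1 : ℤ)⟧} (hC : Triangle.mk ((p : ℤ) • 𝟙 (𝟙_ T)) i δ ∈ distTriang T)
    (Dn : KosData D.P (p : ℤ) n (D.vs p)) (hK : ∀ W, Acyclic C W → Acyclic Dn.K W) {K₄ : T}
    (F₅ : LocFunctor Dn.K) (F₄ : LocFunctor K₄)
    (G₅ : GrOut D U p n i F₅) (G₄ : GrOut D U p (p - 1) i F₄) :
    ∃ (m : ℤ) (f : (𝟙_ T)⟦m⟧ ⟶ 𝟙_ T), m = ((p : ℤ) - 1) ^ 2 * (2 * p * (p - 1) - 2) ∧
      f ≫ F₅.unit.app (𝟙_ T) = 0 ∧ f ≫ i ≫ F₄.unit.app C ≠ 0 := by
  have hp2 := ne_two hp.out h1 h2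
  have hp1 := hp.out.two_le
  have hcast : ((p - 1 : ℕ) : ℤ) = (p : ℤ) - 1 := by omega
  have hW : ((p * (p - 1) : ℕ) : ℤ) = (p : ℤ) * ((p : ℤ) - 1) := by rw [Nat.cast_mul, hcast]
  obtain ⟨t, ht⟩ := T1 p
  obtain ⟨-, -, hb, h4, -⟩ := BCocycle p hp2 t ht
  obtain ⟨x, hz⟩ := exists_beta_one D U hp2 ht (w := ((p * (p - 1) : ℕ) : ℤ)) rfl hb
  obtain ⟨c, hc⟩ := built_finEven_RPS D
  obtain ⟨b, hKF⟩ := Dn.built_finEven hc
  obtain ⟨s₀, hs₀⟩ := hFS p hp2
  obtain ⟨m, f, hm, hf⟩ := exists_witness_gen U hC F₅ F₄ hK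
    (Dn.built_isRMul (built_isRMul_RPS D.R _)) hKF (p * (p - 1)) ((p - 1) ^ 2) (n ^ 2 + 1)
    (sq_add_three hp.out h1 h2)
    (fun w => ((p : ℤ) - 1) ∣ w ∧ ((p : ℤ) ∣ w ∨ (p : ℤ) ∣ w + 1))
    (fun K q hq1 hq2 => by
      rw [hW]
      refine not_exc p (by exact_mod_cast hp1) K q (by exact_mod_cast hq1) ?_
      rw [← hcast]
      exact_mod_cast hq2)
    x _ hz (phi_cocycle D U hb h4 _)
    (fun s n hn => UnitCof.E_eq_zero_of_odd G₅.odd s n hn)
    (fun s hs m => van_height hCV p n hp2 (not_dvd hp.out h1 h2) G₅.model G₅.odd s hs m)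
    (fun s n hn => UnitCof.E_eq_zero_of_odd G₄.odd s n hn) s₀
    (fun s m w hm hs hw => (G₄.model w).van_of_proZero p (p - 1) hm (hs₀ w hw s hs)
      (hs₀ w hw (s + 1) (by omega)))
    (fun K => by
      obtain ⟨e, he⟩ := zpow_eq_phi (M := D) (U := U) hb (sphE T _).symm (K + 1) _ rfl
        (cupPow_isWt hb (K + 1))
      have he' : U.zpow (𝟙_ T) ((sphE T _).inv ≫ D.phi U 2 _ ⟨bcls p t, hb⟩)
        (uOne T ≫ unitMap D.R (𝟙_ T)) (K + 1) = _ := he
      rw [he']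
      exact G₄.not_cobdy (s := 2 * K + 1) ⟨cupPow (bcls p t) (K + 1), cupPow_isWt hb (K + 1)⟩
        (FD p hp2 t ht K) e)
  refine ⟨m, f, ?_, hf⟩
  rw [hm, hW, Nat.cast_pow, hcast]
  ring

end Vale.Agent.N251
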